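import Vale.Agent.P038.H207.Fair

/-!
# Pairs of families of closed out-neighbourhoods
-/

namespace Vale.Agent.P038.H207

open Finset

variable {V : Type*} [Fintype V] [DecidableEq V]

/-- The number of outer neighbours of a set. -/
noncomputable def c (D : OGraph V) (S : Finset V) : ℤ := ((nb D S).card : ℤ) - S.card

theorem c_union {D : OGraph V} {A S : Finset V} (h : Disjoint A S) :
    c D (A ∪ S) = c D A + ((nb D S \ nb D A).card : ℤ) - S.card := by
  unfold c
  have e1 : nb D (A ∪ S) = nb D A ∪ (nb D S \ nb D A) := by
    rw [nb_union]; exact (Finset.union_sdiff_self_eq_union).symm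
  rw [e1, Finset.card_union_of_disjoint Finset.disjoint_sdiff, Finset.card_union_of_disjoint h]
  push_cast; ring

/-- Admissible pairs of families. -/
structure Feas (D : OGraph V) (X Y : V → Finset V) : Prop where
  hX : ∀ a x, Cl D a x → x ∈ X a
  hY : ∀ b y, Cl D b y → y ∈ Y b
  sep : ∀ a b, b ∈ X a → a ∈ Y b → a = b

/-- The cost of a pair of families. -/
noncomputable def cost (D : OGraph V) (X Y : V → Finset V) : ℤ :=
  ∑ a, c D (X a) + ∑ b, c D (Y b)

open Classical in
/-- The complementary transposed family. -/
noncomputable def Us (Y : V → Finset V) (z : V) : Finset V :=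
  Finset.univ.filter fun x => x = z ∨ z ∉ Y x

theorem mem_Us {Y : V → Finset V} {z x : V} : x ∈ Us Y z ↔ x = z ∨ z ∉ Y x := by
  classical
  simp [Us]

open Classical in
/-- The family of intersections over the closed in-neighbourhoods. -/
noncomputable def AZ (D : OGraph V) (X : V → Finset V) (s : V) : Finset V :=
  Finset.univ.filter fun x => ∀ z, Cl D z s → x ∈ X z

theorem mem_AZ {D : OGraph V} {X : V → Finset V} {s x : V} :
    x ∈ AZ D X s ↔ ∀ z, Cl D z s → x ∈ X z := by
  classical
  simp [AZ]

theorem sum_Us {W : V → Finset V} (hW : ∀ x, x ∈ W x) :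
    (∑ z, ((Us W z).card : ℤ)) = ∑ x, ((Fintype.card V : ℤ) + 1 - (W x).card) := by
  classical
  have e1 : ∀ z, ((Us W z).card : ℤ) = ∑ x, if (x = z ∨ z ∉ W x) then (1 : ℤ) else 0 := by
    intro z
    rw [Finset.sum_boole]
    congr 2
  rw [Finset.sum_congr rfl fun z _ => e1 z, Finset.sum_comm]
  refine Finset.sum_congr rfl fun x _ => ?_
  rw [Finset.sum_boole]
  have e2 : (Finset.univ.filter fun z => x = z ∨ z ∉ W x) = insert x (W x)ᶜ := by
    ext z
    simp only [Finset.mem_filter, Finset.mem_univ, true_and, Finset.mem_insert, Finset.mem_compl]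
    constructor
    · rintro (h | h)
      · exact Or.inl h.symm
      · exact Or.inr h
    · rintro (h | h)
      · exact Or.inl h.symm
      · exact Or.inr h
  rw [e2, Finset.card_insert_of_notMem (by simpa using hW x), Finset.card_compl]
  have h3 : (W x).card ≤ Fintype.card V := Finset.card_le_univ _
  push_cast [Nat.cast_sub h3]
  ring

theorem row_opt {D : OGraph V} {X Y : V → Finset V} (hF : Feas D X Y)
    (hmin : ∀ X' Y', Feas D X' Y' → cost D X Y ≤ cost D X' Y') (z : V) (S : Finset V)
    (hS : S ⊆ Us Y z \ X z) : S.card ≤ (nb D S \ nb D (X z)).card := by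
  have hdis : Disjoint (X z) S := by
    rw [Finset.disjoint_left]
    intro x h1 h2
    exact (Finset.mem_sdiff.1 (hS h2)).2 h1
  have hF' : Feas D (Function.update X z (X z ∪ S)) Y := by
    refine ⟨?_, hF.hY, ?_⟩
    · intro a x h
      by_cases ha : a = z
      · subst ha
        rw [Function.update_self]
        exact Finset.mem_union_left _ (hF.hX _ _ h)
      · rw [Function.update_of_ne ha]; exact hF.hX _ _ h
    · intro a b h1 h2
      by_cases ha : a = z
      · subst ha
        rw [Function.update_self] at h1
        rcases Finset.mem_union.1 h1 with h1 | h1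
        · exact hF.sep _ _ h1 h2
        · rcases mem_Us.1 (Finset.mem_sdiff.1 (hS h1)).1 with h3 | h3
          · exact h3.symm
          · exact absurd h2 h3
      · rw [Function.update_of_ne ha] at h1; exact hF.sep _ _ h1 h2
  have h := hmin _ _ hF'
  unfold cost at h
  have e : ∑ a, c D (Function.update X z (X z ∪ S) a) = ∑ a, c D (X a) + (c D (X z ∪ S) - c D (X z)) := by
    rw [← Finset.add_sum_erase _ _ (Finset.mem_univ z),
      ← Finset.add_sum_erase (Finset.univ) (fun a => c D (X a)) (Finset.mem_univ z)]
    rw [Function.update_self]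
    have e2 : ∑ a ∈ Finset.univ.erase z, c D (Function.update X z (X z ∪ S) a) =
        ∑ a ∈ Finset.univ.erase z, c D (X a) := by
      refine Finset.sum_congr rfl fun a ha => ?_
      rw [Function.update_of_ne (Finset.ne_of_mem_erase ha)]
    rw [e2]; ring
  rw [e, c_union hdis] at h
  omega

theorem col_opt {D : OGraph V} {X Y : V → Finset V} (hF : Feas D X Y)
    (hmin : ∀ X' Y', Feas D X' Y' → cost D X Y ≤ cost D X' Y') (x : V) (T : Finset V)
    (hT : ∀ z ∈ T, z ∉ Y x ∧ x ∉ X z) : T.card ≤ (nb D T \ nb D (Y x)).card := by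
  have hdis : Disjoint (Y x) T := by
    rw [Finset.disjoint_left]
    intro z h1 h2
    exact (hT z h2).1 h1
  have hF' : Feas D X (Function.update Y x (Y x ∪ T)) := by
    refine ⟨hF.hX, ?_, ?_⟩
    · intro a y h
      by_cases ha : a = x
      · subst ha
        rw [Function.update_self]
        exact Finset.mem_union_left _ (hF.hY _ _ h)
      · rw [Function.update_of_ne ha]; exact hF.hY _ _ h
    · intro a b h1 h2
      by_cases hb : b = x
      · subst hb
        rw [Function.update_self] at h2
        rcases Finset.mem_union.1 h2 with h2 | h2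
        · exact hF.sep _ _ h1 h2
        · exact absurd h1 (hT a h2).2
      · rw [Function.update_of_ne hb] at h2; exact hF.sep _ _ h1 h2
  have h := hmin _ _ hF'
  unfold cost at h
  have e : ∑ a, c D (Function.update Y x (Y x ∪ T) a) = ∑ a, c D (Y a) + (c D (Y x ∪ T) - c D (Y x)) := by
    rw [← Finset.add_sum_erase _ _ (Finset.mem_univ x),
      ← Finset.add_sum_erase (Finset.univ) (fun a => c D (Y a)) (Finset.mem_univ x)]
    rw [Function.update_self]
    have e2 : ∑ a ∈ Finset.univ.erase x, c D (Function.update Y x (Y x ∪ T) a) =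
        ∑ a ∈ Finset.univ.erase x, c D (Y a) := by
      refine Finset.sum_congr rfl fun a ha => ?_
      rw [Function.update_of_ne (Finset.ne_of_mem_erase ha)]
    rw [e2]; ring
  rw [e, c_union hdis] at h
  omega

end Vale.Agent.P038.H207
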