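import Vale.Agent.P038.H207.G

/-!
# Fair allocations
-/

namespace Vale.Agent.P038.H207

open Finset

variable {V : Type*} [Fintype V]

/-- A fair allocation for the agents `U \ Z` and the resources `N[U] \ N[Z]`; `p x u` is the share
of the resource `u` which is given to the agent `x`. -/
structure Fair (D : OGraph V) (U Z : Finset V) (p : V → V → ℝ) : Prop where
  nonneg : ∀ x u, 0 ≤ p x u
  supp : ∀ x u, 0 < p x u → x ∈ U ∧ x ∉ Z ∧ Cl D x u ∧ u ∈ nb D U ∧ u ∉ nb D Z
  total : ∀ u, u ∈ nb D U → u ∉ nb D Z → ∑ x, p x u = 1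
  kkt : ∀ x u y, 0 < p x u → y ∈ U → y ∉ Z → Cl D y u → ∑ u, p x u ≤ ∑ u, p y u

theorem exists_fair [DecidableEq V] (D : OGraph V) (U Z : Finset V) :
    ∃ p : V → V → ℝ, Fair D U Z p := by
  classical
  -- the set of all allocations
  set K : Set (V → V → ℝ) := {p | (∀ x u, 0 ≤ p x u) ∧
    (∀ x u, ¬ (x ∈ U ∧ x ∉ Z ∧ Cl D x u ∧ u ∈ nb D U ∧ u ∉ nb D Z) → p x u = 0) ∧
    (∀ u, u ∈ nb D U → u ∉ nb D Z → ∑ x, p x u = 1)} with hK
  have hle : ∀ p ∈ K, ∀ x u, p x u ≤ 1 := by
    rintro p ⟨h1, h2, h3⟩ x u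
    by_cases hc : x ∈ U ∧ x ∉ Z ∧ Cl D x u ∧ u ∈ nb D U ∧ u ∉ nb D Z
    · rw [← h3 u hc.2.2.2.1 hc.2.2.2.2]
      exact Finset.single_le_sum (f := fun x => p x u) (fun y _ => h1 y u) (Finset.mem_univ x)
    · rw [h2 x u hc]; exact zero_le_one
  have hcomp : IsCompact K := by
    have hsub : K ⊆ Set.pi Set.univ (fun _ : V => Set.pi Set.univ (fun _ : V => Set.Icc (0:ℝ) 1)) := by
      intro p hp x _ u _
      exact ⟨hp.1 x u, hle p hp x u⟩
    have hc : IsCompact (Set.pi Set.univ (fun _ : V => Set.pi Set.univ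
        (fun _ : V => Set.Icc (0:ℝ) 1))) :=
      isCompact_univ_pi fun _ => isCompact_univ_pi fun _ => isCompact_Icc
    refine hc.of_isClosed_subset ?_ hsub
    have e : K = (⋂ x, ⋂ u, {p : V → V → ℝ | 0 ≤ p x u}) ∩
        ((⋂ x, ⋂ u, {p : V → V → ℝ |
          ¬ (x ∈ U ∧ x ∉ Z ∧ Cl D x u ∧ u ∈ nb D U ∧ u ∉ nb D Z) → p x u = 0}) ∩
        (⋂ u, {p : V → V → ℝ | u ∈ nb D U → u ∉ nb D Z → ∑ x, p x u = 1})) := by
      ext p
      simp only [hK, Set.mem_setOf_eq, Set.mem_inter_iff, Set.mem_iInter]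
    rw [e]
    refine IsClosed.inter ?_ (IsClosed.inter ?_ ?_)
    · refine isClosed_iInter fun x => isClosed_iInter fun u => ?_
      exact isClosed_le continuous_const (by fun_prop)
    · refine isClosed_iInter fun x => isClosed_iInter fun u => ?_
      by_cases hc : x ∈ U ∧ x ∉ Z ∧ Cl D x u ∧ u ∈ nb D U ∧ u ∉ nb D Z
      · have e2 : {p : V → V → ℝ | ¬ (x ∈ U ∧ x ∉ Z ∧ Cl D x u ∧ u ∈ nb D U ∧ u ∉ nb D Z) →
            p x u = 0} = Set.univ := by
          ext p; simp only [Set.mem_setOf_eq, Set.mem_univ, iff_true]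
          intro h; exact absurd hc h
        rw [e2]; exact isClosed_univ
      · have e2 : {p : V → V → ℝ | ¬ (x ∈ U ∧ x ∉ Z ∧ Cl D x u ∧ u ∈ nb D U ∧ u ∉ nb D Z) →
            p x u = 0} = {p | p x u = 0} := by
          ext p; simp only [Set.mem_setOf_eq]
          exact ⟨fun h => h hc, fun h _ => h⟩
        rw [e2]
        exact isClosed_eq (by fun_prop) continuous_const
    · refine isClosed_iInter fun u => ?_
      by_cases h1 : u ∈ nb D U
      · by_cases h2 : u ∉ nb D Z
        · have e2 : {p : V → V → ℝ | u ∈ nb D U → u ∉ nb D Z → ∑ x, p x u = 1} =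
              {p | ∑ x, p x u = 1} := by
            ext p; simp only [Set.mem_setOf_eq]
            exact ⟨fun h => h h1 h2, fun h _ _ => h⟩
          rw [e2]
          exact isClosed_eq (by fun_prop) continuous_const
        · have e2 : {p : V → V → ℝ | u ∈ nb D U → u ∉ nb D Z → ∑ x, p x u = 1} = Set.univ := by
            ext p; simp only [Set.mem_setOf_eq, Set.mem_univ, iff_true]
            intro _ h; exact absurd h h2
          rw [e2]; exact isClosed_univ
      · have e2 : {p : V → V → ℝ | u ∈ nb D U → u ∉ nb D Z → ∑ x, p x u = 1} = Set.univ := by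
          ext p; simp only [Set.mem_setOf_eq, Set.mem_univ, iff_true]
          intro h; exact absurd h h1
        rw [e2]; exact isClosed_univ
  have hne : K.Nonempty := by
    have hch : ∀ u : V, ∃ x : V, u ∈ nb D U → u ∉ nb D Z → (x ∈ U ∧ x ∉ Z ∧ Cl D x u) := by
      intro u
      by_cases h1 : u ∈ nb D U
      · by_cases h2 : u ∉ nb D Z
        · obtain ⟨x, hx, h3⟩ := mem_nb.1 h1
          exact ⟨x, fun _ _ => ⟨hx, fun h4 => h2 (mem_nb.2 ⟨x, h4, h3⟩), h3⟩⟩
        · exact ⟨u, fun _ h => absurd h h2⟩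
      · exact ⟨u, fun h => absurd h h1⟩
    choose f hf using hch
    refine ⟨fun x u => if (u ∈ nb D U ∧ u ∉ nb D Z) ∧ x = f u then 1 else 0, ?_, ?_, ?_⟩
    · intro x u
      dsimp only
      split_ifs <;> norm_num
    · intro x u hc
      dsimp only
      rw [if_neg]
      rintro ⟨⟨h1, h2⟩, rfl⟩
      have h3 := hf u h1 h2
      exact hc ⟨h3.1, h3.2.1, h3.2.2, h1, h2⟩
    · intro u h1 h2
      dsimp only
      rw [Finset.sum_eq_single (f u)]
      · rw [if_pos ⟨⟨h1, h2⟩, rfl⟩]
      · intro x _ hx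
        rw [if_neg]
        rintro ⟨-, h⟩
        exact hx h
      · intro h; exact absurd (Finset.mem_univ _) h
  obtain ⟨p, hp, hmin⟩ := hcomp.exists_isMinOn hne
    (f := fun p : V → V → ℝ => ∑ x, (∑ u, p x u) ^ 2) (by fun_prop)
  refine ⟨p, hp.1, ?_, hp.2.2, ?_⟩
  · intro x u h1
    by_contra hc
    rw [hp.2.1 x u hc] at h1
    exact lt_irrefl _ h1
  · intro x u y hxu hyU hyZ hyu
    by_contra hcon
    push Not at hcon
    have hc : x ∈ U ∧ x ∉ Z ∧ Cl D x u ∧ u ∈ nb D U ∧ u ∉ nb D Z := by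
      by_contra hc
      rw [hp.2.1 x u hc] at hxu
      exact lt_irrefl _ hxu
    have hxy : y ≠ x := by
      rintro rfl
      exact lt_irrefl _ hcon
    set a := ∑ u, p x u with ha
    set b := ∑ u, p y u with hb
    set ε := min (p x u) ((a - b) / 2) with hε
    have hε0 : 0 < ε := lt_min hxu (by linarith)
    have hε1 : ε ≤ p x u := min_le_left _ _
    have hε2 : ε ≤ (a - b) / 2 := min_le_right _ _
    set p' : V → V → ℝ := fun x' u' => p x' u' + (if u' = u then
      ((if x' = y then ε else 0) - (if x' = x then ε else 0)) else 0) with hp'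
    have hp'K : p' ∈ K := by
      refine ⟨?_, ?_, ?_⟩
      · intro x' u'
        simp only [hp']
        have h0 := hp.1 x' u'
        split_ifs with h1 h2 h3 h3
        · exact absurd (h2.symm.trans h3) hxy
        · linarith
        · rw [h1, h3]; linarith
        · linarith
        · linarith
      · intro x' u' hc'
        simp only [hp']
        rw [hp.2.1 x' u' hc']
        split_ifs with h1 h2 h3 h3
        · exact absurd (h2.symm.trans h3) hxy
        · exact absurd ⟨h2 ▸ hyU, h2 ▸ hyZ, by rw [h1, h2]; exact hyu, h1 ▸ hc.2.2.2.1,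
            h1 ▸ hc.2.2.2.2⟩ hc'
        · exact absurd (by rw [h1, h3]; exact hc) hc'
        · ring
        · ring
      · intro u' h1 h2
        simp only [hp']
        rw [Finset.sum_add_distrib, hp.2.2 u' h1 h2]
        by_cases h3 : u' = u
        · simp only [h3, if_true, Finset.sum_sub_distrib, Finset.sum_ite_eq', Finset.mem_univ]
          ring
        · simp only [h3, if_false, Finset.sum_const_zero, add_zero]
    have hload : ∀ x', ∑ u', p' x' u' = ∑ u', p x' u' +
        ((if x' = y then ε else 0) - (if x' = x then ε else 0)) := by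
      intro x'
      simp only [hp']
      rw [Finset.sum_add_distrib]
      congr 1
      rw [Finset.sum_ite_eq']
      simp
    have hm := hmin hp'K
    simp only [Set.mem_setOf_eq] at hm
    have e1 : ∑ x', (∑ u', p' x' u') ^ 2 =
        ∑ x', (∑ u', p x' u') ^ 2 + ∑ x', ((if x' = y then (2 * b * ε + ε ^ 2) else 0) +
          (if x' = x then (-2 * a * ε + ε ^ 2) else 0)) := by
      rw [← Finset.sum_add_distrib]
      refine Finset.sum_congr rfl fun x' _ => ?_
      rw [hload]
      by_cases h1 : x' = y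
      · have h2 : x' ≠ x := fun h => hxy (h1.symm.trans h)
        rw [if_pos h1, if_neg h2, if_pos h1, if_neg h2, h1]
        rw [← hb]
        ring
      · by_cases h2 : x' = x
        · rw [if_neg h1, if_pos h2, if_neg h1, if_pos h2, h2]
          rw [← ha]
          ring
        · rw [if_neg h1, if_neg h2, if_neg h1, if_neg h2]
          ring
    rw [e1, Finset.sum_add_distrib, Finset.sum_ite_eq', Finset.sum_ite_eq'] at hm
    simp only [Finset.mem_univ, if_true] at hm
    nlinarith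

/-- The load of an agent. -/
noncomputable def load (p : V → V → ℝ) (x : V) : ℝ := ∑ u, p x u

theorem Fair.sum_load [DecidableEq V] {D : OGraph V} {U Z : Finset V} {p : V → V → ℝ}
    (h : Fair D U Z p) : ∑ x ∈ U \ Z, load p x = ((nb D U \ nb D Z).card : ℝ) := by
  classical
  have e1 : ∑ x ∈ U \ Z, load p x = ∑ x, load p x := by
    refine Finset.sum_subset (Finset.subset_univ _) ?_
    intro x _ hx
    unfold load
    refine Finset.sum_eq_zero fun u _ => ?_
    by_contra hne
    have h1 := h.supp x u (lt_of_le_of_ne (h.nonneg x u) (Ne.symm hne))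
    exact hx (Finset.mem_sdiff.2 ⟨h1.1, h1.2.1⟩)
  rw [e1]
  unfold load
  rw [Finset.sum_comm, Finset.card_eq_sum_ones]
  push_cast
  rw [← Finset.sum_subset (Finset.subset_univ (nb D U \ nb D Z))]
  · refine Finset.sum_congr rfl fun u hu => ?_
    obtain ⟨h1, h2⟩ := Finset.mem_sdiff.1 hu
    exact h.total u h1 h2
  · intro u _ hu
    refine Finset.sum_eq_zero fun x _ => ?_
    by_contra hne
    have h1 := h.supp x u (lt_of_le_of_ne (h.nonneg x u) (Ne.symm hne))
    exact hu (Finset.mem_sdiff.2 h1.2.2.2)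

theorem Fair.one_le [DecidableEq V] {D : OGraph V} {U Z : Finset V} {p : V → V → ℝ}
    (h : Fair D U Z p)
    (hall : ∀ S ⊆ U \ Z, S.card ≤ (nb D S \ nb D Z).card) (x : V) (hxU : x ∈ U) (hxZ : x ∉ Z) :
    1 ≤ load p x := by
  classical
  by_contra hcon
  push Not at hcon
  set S := (U \ Z).filter fun y => load p y ≤ load p x with hS
  have hxS : x ∈ S := Finset.mem_filter.2 ⟨Finset.mem_sdiff.2 ⟨hxU, hxZ⟩, le_rfl⟩
  have h1 := hall S (Finset.filter_subset _ _)
  have h2 : ((nb D S \ nb D Z).card : ℝ) ≤ ∑ y ∈ S, load p y := by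
    unfold load
    rw [Finset.sum_comm, Finset.card_eq_sum_ones]
    push_cast
    have h3 : ∀ u ∈ nb D S \ nb D Z, (1 : ℝ) ≤ ∑ y ∈ S, p y u := by
      intro u hu
      obtain ⟨h3, h4⟩ := Finset.mem_sdiff.1 hu
      obtain ⟨y, hy, h5⟩ := mem_nb.1 h3
      have hyUZ := Finset.mem_filter.1 hy
      obtain ⟨h6, h7⟩ := Finset.mem_sdiff.1 hyUZ.1
      have h8 : u ∈ nb D U := mem_nb.2 ⟨y, h6, h5⟩
      rw [← h.total u h8 h4]
      refine le_of_eq (Finset.sum_subset (Finset.subset_univ _) ?_).symm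
      intro z _ hz
      by_contra hne
      have h9 : 0 < p z u := lt_of_le_of_ne (h.nonneg z u) (Ne.symm hne)
      have h10 := h.kkt z u y h9 h6 h7 h5
      have h11 := h.supp z u h9
      refine hz (Finset.mem_filter.2 ⟨Finset.mem_sdiff.2 ⟨h11.1, h11.2.1⟩, ?_⟩)
      exact le_trans h10 hyUZ.2
    calc ∑ u ∈ nb D S \ nb D Z, (1 : ℝ) ≤ ∑ u ∈ nb D S \ nb D Z, ∑ y ∈ S, p y u :=
          Finset.sum_le_sum h3
      _ ≤ ∑ u, ∑ y ∈ S, p y u :=
          Finset.sum_le_sum_of_subset_of_nonneg (Finset.subset_univ _)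
            fun u _ _ => Finset.sum_nonneg fun y _ => h.nonneg y u
  have h3 : ∑ y ∈ S, load p y < S.card := by
    have h4 : ∑ y ∈ S, load p y < ∑ y ∈ S, (1 : ℝ) := by
      refine Finset.sum_lt_sum (fun y hy => ?_) ⟨x, hxS, hcon⟩
      have := (Finset.mem_filter.1 hy).2
      linarith
    simpa using h4
  have h4 : (S.card : ℝ) ≤ ((nb D S \ nb D Z).card : ℝ) := by exact_mod_cast h1
  linarith

theorem Fair.mono [DecidableEq V] {D : OGraph V} {U1 Z1 U2 Z2 : Finset V} {p1 p2 : V → V → ℝ}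
    (h1 : Fair D U1 Z1 p1) (h2 : Fair D U2 Z2 p2) (hU : U2 ⊆ U1) (hZ : Z2 ⊆ Z1) (x : V)
    (hxU : x ∈ U2) (hxZ : x ∉ Z1) : load p1 x ≤ load p2 x := by
  classical
  by_contra hcon
  push Not at hcon
  set t := load p1 x with ht
  set W := (U2 \ Z1).filter fun y => load p2 y < t ∧ t ≤ load p1 y with hW
  have hxW : x ∈ W := Finset.mem_filter.2 ⟨Finset.mem_sdiff.2 ⟨hxU, hxZ⟩, hcon, le_rfl⟩
  set XW : Finset V := Finset.univ.filter fun u => ∃ y ∈ W, 0 < p1 y u with hXW
  have hA : ∑ y ∈ W, load p1 y ≤ XW.card := by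
    unfold load
    rw [Finset.sum_comm, Finset.card_eq_sum_ones]
    push_cast
    calc ∑ u, ∑ y ∈ W, p1 y u = ∑ u ∈ XW, ∑ y ∈ W, p1 y u := by
          refine (Finset.sum_subset (Finset.subset_univ _) ?_).symm
          intro u _ hu
          refine Finset.sum_eq_zero fun y hy => ?_
          by_contra hne
          exact hu (Finset.mem_filter.2 ⟨Finset.mem_univ _, y, hy,
            lt_of_le_of_ne (h1.nonneg y u) (Ne.symm hne)⟩)
      _ ≤ ∑ u ∈ XW, (1 : ℝ) := by
          refine Finset.sum_le_sum fun u hu => ?_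
          obtain ⟨y, hy, h3⟩ := (Finset.mem_filter.1 hu).2
          have h4 := h1.supp y u h3
          rw [← h1.total u h4.2.2.2.1 h4.2.2.2.2]
          exact Finset.sum_le_sum_of_subset_of_nonneg (Finset.subset_univ _)
            fun z _ _ => h1.nonneg z u
  have hB : (XW.card : ℝ) ≤ ∑ y ∈ W, load p2 y := by
    unfold load
    rw [Finset.sum_comm, Finset.card_eq_sum_ones]
    push_cast
    calc ∑ u ∈ XW, (1 : ℝ) ≤ ∑ u ∈ XW, ∑ y ∈ W, p2 y u := by
          refine Finset.sum_le_sum fun u hu => ?_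
          obtain ⟨y, hy, h3⟩ := (Finset.mem_filter.1 hu).2
          obtain ⟨hy1, hy2, hy3⟩ := Finset.mem_filter.1 hy
          obtain ⟨hyU, hyZ⟩ := Finset.mem_sdiff.1 hy1
          have h4 := h1.supp y u h3
          have h5 : u ∈ nb D U2 := mem_nb.2 ⟨y, hyU, h4.2.2.1⟩
          have h6 : u ∉ nb D Z2 := fun h => h4.2.2.2.2 (nb_mono hZ h)
          rw [← h2.total u h5 h6]
          refine le_of_eq (Finset.sum_subset (Finset.subset_univ _) ?_).symm
          intro z _ hz
          by_contra hne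
          have h9 : 0 < p2 z u := lt_of_le_of_ne (h2.nonneg z u) (Ne.symm hne)
          have h10 := h2.supp z u h9
          have h11 : load p2 z ≤ load p2 y :=
            h2.kkt z u y h9 hyU (fun h => hyZ (hZ h)) h4.2.2.1
          have h12 : z ∉ Z1 := fun h => h4.2.2.2.2 (mem_nb.2 ⟨z, h, h10.2.2.1⟩)
          have h13 : load p1 y ≤ load p1 z := h1.kkt y u z h3 (hU h10.1) h12 h10.2.2.1
          exact hz (Finset.mem_filter.2 ⟨Finset.mem_sdiff.2 ⟨h10.1, h12⟩,
            lt_of_le_of_lt h11 hy2, le_trans hy3 h13⟩)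
      _ ≤ ∑ u, ∑ y ∈ W, p2 y u :=
          Finset.sum_le_sum_of_subset_of_nonneg (Finset.subset_univ _)
            fun u _ _ => Finset.sum_nonneg fun y _ => h2.nonneg y u
  have hC : ∑ y ∈ W, load p2 y < ∑ y ∈ W, load p1 y := by
    refine Finset.sum_lt_sum_of_nonempty ⟨x, hxW⟩ fun y hy => ?_
    have h3 := (Finset.mem_filter.1 hy).2
    exact lt_of_lt_of_le h3.1 h3.2
  linarith

end Vale.Agent.P038.H207
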