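import Vale.Agent.P038.H207.Key

/-!
# Seymour's second neighbourhood conjecture
-/

namespace Vale.Agent.P038.H207

open Finset

variable {V : Type*} [Fintype V] [DecidableEq V]

theorem sum_c {D : OGraph V} {Y : V → Finset V} (hY : ∀ b, b ∈ Y b) :
    ∑ b, c D (Y b) = ∑ z, ((Us Y z).card : ℤ) - ∑ z, ((Us (fun x => nb D (Y x)) z).card : ℤ) := by
  rw [sum_Us hY, sum_Us (fun x => subset_nb D _ (hY x)), ← Finset.sum_sub_distrib]
  refine Finset.sum_congr rfl fun x _ => ?_
  unfold c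
  ring

/-- The competitor family. -/
noncomputable def Yp (D : OGraph V) (Y : V → Finset V) : V → Finset V :=
  Us (fun y => nb D (Us Y y))

theorem nb_Yp {D : OGraph V} {X Y : V → Finset V} (hF : Feas D X Y) (b : V) :
    nb D (Yp D Y b) ⊆ Us (fun y => nb D (Us (fun x => nb D (Y x)) y)) b := by
  intro y' hy'
  obtain ⟨y, hy, h⟩ := mem_nb.1 hy'
  rw [mem_Us]
  rcases mem_Us.1 hy with rfl | hy
  · rcases h with h | h
    · exact Or.inl h
    · right
      intro hb
      obtain ⟨x, hx, h1⟩ := mem_nb.1 hb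
      have h2 := AU_sub_U hF (Or.inr h) hx
      have h3 : x = y := by
        rcases mem_Us.1 h2 with h2 | h2
        · exact h2
        · exact absurd (hF.hY _ _ h1) h2
      subst h3
      rcases mem_Us.1 hx with h4 | h4
      · subst h4; exact D.loopless _ h
      · exact h4 (subset_nb D _ (hF.hY _ _ (Or.inr h)))
  · right
    intro hb
    exact hy (nb_mono (AU_sub_U hF h) hb)

theorem sum_Yp {D : OGraph V} {X Y : V → Finset V} (hF : Feas D X Y) :
    ∑ b, c D (Yp D Y b) ≤ ∑ z, ((nb D (Us Y z)).card : ℤ) -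
      ∑ z, ((nb D (Us (fun x => nb D (Y x)) z)).card : ℤ) := by
  have h1 : ∑ b, c D (Yp D Y b) ≤
      ∑ b, (((Us (fun y => nb D (Us (fun x => nb D (Y x)) y)) b).card : ℤ) -
        (Us (fun y => nb D (Us Y y)) b).card) := by
    refine Finset.sum_le_sum fun b _ => ?_
    unfold c
    have h2 := Finset.card_le_card (nb_Yp hF b)
    have h3 : (Yp D Y b).card = (Us (fun y => nb D (Us Y y)) b).card := rfl
    rw [h3]
    have : ((nb D (Yp D Y b)).card : ℤ) ≤
      ((Us (fun y => nb D (Us (fun x => nb D (Y x)) y)) b).card : ℤ) := by exact_mod_cast h2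
    linarith
  refine le_trans h1 ?_
  rw [Finset.sum_sub_distrib, sum_Us, sum_Us]
  · rw [← Finset.sum_sub_distrib, ← Finset.sum_sub_distrib]
    refine le_of_eq (Finset.sum_congr rfl fun x _ => ?_)
    ring
  · intro x; exact subset_nb D _ (mem_Us.2 (Or.inl rfl))
  · intro x; exact subset_nb D _ (mem_Us.2 (Or.inl rfl))

/-- The competitor is not more expensive. -/
theorem cost_le {D : OGraph V} {X Y : V → Finset V} (hF : Feas D X Y)
    (hmin : ∀ X' Y', Feas D X' Y' → cost D X Y ≤ cost D X' Y') :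
    cost D (AZ D X) (Yp D Y) ≤ cost D X Y := by
  have h1 := key hF hmin
  have h2 := sum_Yp hF
  have h3 := sum_c (D := D) (Y := Y) (fun b => hF.hY _ _ (Or.inl rfl))
  unfold cost
  rw [h3]
  rw [Finset.sum_sub_distrib, Finset.sum_sub_distrib] at h1
  have e1 : ∑ z, c D (Us Y z) = ∑ z, ((nb D (Us Y z)).card : ℤ) - ∑ z, ((Us Y z).card : ℤ) := by
    rw [← Finset.sum_sub_distrib]; rfl
  have e2 : ∑ z, c D (Us (fun x => nb D (Y x)) z) =
      ∑ z, ((nb D (Us (fun x => nb D (Y x)) z)).card : ℤ) -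
        ∑ z, ((Us (fun x => nb D (Y x)) z).card : ℤ) := by
    rw [← Finset.sum_sub_distrib]; rfl
  rw [e1, e2] at h1
  linarith

theorem feas_nb {D : OGraph V} {X Y : V → Finset V} (hF : Feas D X Y) :
    Feas D (fun a => nb D (AZ D X a)) (fun b => nb D (Yp D Y b)) := by
  refine ⟨?_, ?_, ?_⟩
  · intro a x h
    exact mem_nb.2 ⟨a, mem_AZ.2 fun z hz => hF.hX _ _ hz, h⟩
  · intro b y h
    exact mem_nb.2 ⟨b, mem_Us.2 (Or.inl rfl), h⟩
  · intro a b h1 h2
    rcases mem_Us.1 (nb_Yp hF b h2) with h3 | h3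
    · exact h3
    · exact absurd (nb_mono (AZ_sub_AU hF a) h1) h3

theorem c_eq {D : OGraph V} (S : Finset V) : c D S = ((nb D S \ S).card : ℤ) := by
  rw [Finset.cast_card_sdiff (subset_nb D S)]; rfl

theorem c_nb_le {D : OGraph V} (h : MinCE D) (S : Finset V) : c D (nb D S) ≤ c D S := by
  rw [c_eq, c_eq]
  by_cases hS : (nb D S \ S).Nonempty
  · exact_mod_cast (G h S hS).le
  · rw [Finset.not_nonempty_iff_eq_empty, Finset.sdiff_eq_empty_iff_subset] at hS
    have e : nb D S = S := Finset.Subset.antisymm hS (subset_nb D S)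
    rw [e, e]

theorem c_nb_lt {D : OGraph V} (h : MinCE D) (S : Finset V) (hS : nb D S ≠ S) :
    c D (nb D S) < c D S := by
  rw [c_eq, c_eq]
  have : (nb D S \ S).Nonempty := by
    rw [Finset.nonempty_iff_ne_empty]
    intro h0
    rw [Finset.sdiff_eq_empty_iff_subset] at h0
    exact hS (Finset.Subset.antisymm h0 (subset_nb D S))
  exact_mod_cast G h S this

theorem exists_min (D : OGraph V) : ∃ X Y : V → Finset V, Feas D X Y ∧
    ∀ X' Y', Feas D X' Y' → cost D X Y ≤ cost D X' Y' := by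
  classical
  have h0 : Feas D (fun a => nb D {a}) (fun a => nb D {a}) := by
    have hm : ∀ a x, x ∈ nb D {a} ↔ Cl D a x := by
      intro a x
      rw [mem_nb]
      simp
    refine ⟨fun a x h => (hm a x).2 h, fun a x h => (hm a x).2 h, ?_⟩
    intro a b h1 h2
    rw [hm] at h1 h2
    rcases h1 with h1 | h1
    · exact h1.symm
    · rcases h2 with h2 | h2
      · exact h2
      · exact absurd h2 (D.asymm _ _ h1)
  obtain ⟨q, hq, hq2⟩ := Finset.exists_min_image
    ((Finset.univ : Finset ((V → Finset V) × (V → Finset V))).filter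
      fun q => Feas D q.1 q.2) (fun q => cost D q.1 q.2)
    ⟨(fun a => nb D {a}, fun a => nb D {a}), Finset.mem_filter.2 ⟨Finset.mem_univ _, h0⟩⟩
  refine ⟨q.1, q.2, (Finset.mem_filter.1 hq).2, ?_⟩
  intro X' Y' h
  exact hq2 (X', Y') (Finset.mem_filter.2 ⟨Finset.mem_univ _, h⟩)

theorem no_minCE [Nonempty V] {D : OGraph V} (h : MinCE D) : False := by
  classical
  obtain ⟨X, Y, hF, hmin⟩ := exists_min D
  have h1 := cost_le hF hmin
  have h2 := hmin _ _ (feas_nb hF)
  have hclosed : ∀ a, nb D (AZ D X a) = AZ D X a := by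
    by_contra hcon
    push Not at hcon
    obtain ⟨a, ha⟩ := hcon
    have h3 : cost D (fun a => nb D (AZ D X a)) (fun b => nb D (Yp D Y b)) <
        cost D (AZ D X) (Yp D Y) := by
      unfold cost
      refine add_lt_add_of_lt_of_le ?_ ?_
      · exact Finset.sum_lt_sum (fun a _ => c_nb_le h _) ⟨a, Finset.mem_univ _, c_nb_lt h _ ha⟩
      · exact Finset.sum_le_sum fun b _ => c_nb_le h _
    linarith
  -- a minimal nonempty closed set
  obtain ⟨S, hS, hSmin⟩ := Finset.exists_min_image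
    ((Finset.univ : Finset (Finset V)).filter fun S => S.Nonempty ∧ nb D S ⊆ S) Finset.card
    ⟨Finset.univ, Finset.mem_filter.2 ⟨Finset.mem_univ _, Finset.univ_nonempty,
      Finset.subset_univ _⟩⟩
  obtain ⟨-, ⟨a, ha⟩, hS2⟩ := Finset.mem_filter.1 hS
  have h4 := h.ce a
  obtain ⟨u, hu⟩ := Finset.card_pos.1 (lt_of_le_of_lt (Nat.zero_le _) h4)
  rw [mem_N1] at hu
  have huS : u ∈ S := hS2 (mem_nb.2 ⟨a, ha, Or.inr hu⟩)
  have huu : u ∈ AZ D X u := mem_AZ.2 fun z hz => hF.hX _ _ hz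
  have h5 : (AZ D X u ∩ S) = S := by
    refine Finset.eq_of_subset_of_card_le Finset.inter_subset_right ?_
    refine hSmin _ (Finset.mem_filter.2 ⟨Finset.mem_univ _,
      ⟨u, Finset.mem_inter.2 ⟨huu, huS⟩⟩, ?_⟩)
    intro x hx
    obtain ⟨y, hy, h6⟩ := mem_nb.1 hx
    obtain ⟨h7, h8⟩ := Finset.mem_inter.1 hy
    refine Finset.mem_inter.2 ⟨?_, hS2 (mem_nb.2 ⟨y, h8, h6⟩)⟩
    rw [← hclosed u]
    exact mem_nb.2 ⟨y, h7, h6⟩
  have h6 : a ∈ AZ D X u := by
    have : a ∈ AZ D X u ∩ S := by rw [h5]; exact ha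
    exact (Finset.mem_inter.1 this).1
  have h7 : u = a := (feas_nb hF).sep u a (subset_nb D _ h6)
    (mem_nb.2 ⟨a, mem_Us.2 (Or.inl rfl), Or.inr hu⟩)
  subst h7
  exact D.loopless _ hu

/-- **Seymour's second neighbourhood conjecture.** -/
theorem snc {V : Type*} [Fintype V] [Nonempty V] (D : OGraph V) :
    ∃ v, (N1 D v).card ≤ (N2 D v).card := by
  classical
  by_contra hcon
  push Not at hcon
  obtain ⟨D', hD'⟩ := exists_minCE D hcon
  exact no_minCE hD'

end Vale.Agent.P038.H207
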