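import Vale.Agent.P038.Defs
import Mathlib

/-!
# Seymour's second neighbourhood conjecture: arc-minimal counterexamples
-/

namespace Vale.Agent.P038.H207

open Finset

variable {V : Type*} [Fintype V]

/-- `x` is in the closed out-neighbourhood of `a`. -/
def Cl (D : OGraph V) (a x : V) : Prop := x = a ∨ D.arc a x

open Classical in
/-- The closed out-neighbourhood of a set. -/
noncomputable def nb (D : OGraph V) (S : Finset V) : Finset V :=
  Finset.univ.filter fun z => ∃ y ∈ S, Cl D y z

theorem mem_nb {D : OGraph V} {S : Finset V} {z : V} : z ∈ nb D S ↔ ∃ y ∈ S, Cl D y z := by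
  classical
  simp [nb]

theorem subset_nb (D : OGraph V) (S : Finset V) : S ⊆ nb D S := fun x hx =>
  mem_nb.2 ⟨x, hx, Or.inl rfl⟩

theorem nb_mono {D : OGraph V} {S T : Finset V} (h : S ⊆ T) : nb D S ⊆ nb D T := fun x hx => by
  obtain ⟨y, hy, h1⟩ := mem_nb.1 hx
  exact mem_nb.2 ⟨y, h hy, h1⟩

theorem nb_union [DecidableEq V] {D : OGraph V} {S T : Finset V} :
    nb D (S ∪ T) = nb D S ∪ nb D T := by
  ext z
  simp only [mem_nb, Finset.mem_union]
  constructor
  · rintro ⟨y, h | h, h1⟩
    · exact Or.inl ⟨y, h, h1⟩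
    · exact Or.inr ⟨y, h, h1⟩
  · rintro (⟨y, h, h1⟩ | ⟨y, h, h1⟩)
    · exact ⟨y, Or.inl h, h1⟩
    · exact ⟨y, Or.inr h, h1⟩

/-- A counterexample. -/
def CE (D : OGraph V) : Prop := ∀ v, (N2 D v).card < (N1 D v).card

/-- An arc-minimal counterexample. -/
structure MinCE (D : OGraph V) : Prop where
  ce : CE D
  min : ∀ D' : OGraph V, (∀ a b, D'.arc a b → D.arc a b) → CE D' → ∀ a b, D.arc a b → D'.arc a b

open Classical in
/-- The number of arcs. -/
noncomputable def na (D : OGraph V) : ℕ := (Finset.univ.filter fun p : V × V => D.arc p.1 p.2).card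

theorem exists_minCE (D : OGraph V) (h : CE D) : ∃ D' : OGraph V, MinCE D' := by
  classical
  have key : ∀ n : ℕ, ∀ D : OGraph V, na D = n → CE D → ∃ D' : OGraph V, MinCE D' := by
    intro n
    induction n using Nat.strong_induction_on with
    | _ n ih =>
      intro D hn hD
      by_cases hm : ∀ D' : OGraph V, (∀ a b, D'.arc a b → D.arc a b) → CE D' →
          ∀ a b, D.arc a b → D'.arc a b
      · exact ⟨D, hD, hm⟩
      · push Not at hm
        obtain ⟨D', h1, h2, a, b, h3, h4⟩ := hm
        refine ih (na D') ?_ D' rfl h2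
        rw [← hn]
        unfold na
        refine Finset.card_lt_card ?_
        rw [Finset.ssubset_iff_of_subset]
        · exact ⟨(a, b), by simpa using h3, by simpa using h4⟩
        · intro p hp
          simp only [Finset.mem_filter, Finset.mem_univ, true_and] at hp ⊢
          exact h1 _ _ hp
  exact key _ D rfl h

theorem G [DecidableEq V] {D : OGraph V} (h : MinCE D) (X : Finset V) (hX : (nb D X \ X).Nonempty) :
    (nb D (nb D X) \ nb D X).card < (nb D X \ X).card := by
  classical
  by_contra hcon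
  push Not at hcon
  set L := nb D X \ X with hL
  set d : Finset V → ℤ := fun T => ((nb D T \ X).card : ℤ) - 2 * T.card with hd
  have hempty : nb D (∅ : Finset V) = ∅ := by
    ext z; simp [mem_nb]
  have hd0 : d ∅ = 0 := by simp [hd, hempty]
  have hdL : 0 ≤ d L := by
    have e : nb D L \ X = L ∪ (nb D (nb D X) \ nb D X) := by
      ext z
      simp only [Finset.mem_sdiff, Finset.mem_union]
      constructor
      · rintro ⟨h1, h2⟩
        by_cases h3 : z ∈ nb D X
        · left
          rw [hL]; exact Finset.mem_sdiff.2 ⟨h3, h2⟩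
        · right
          refine ⟨?_, h3⟩
          exact nb_mono (Finset.sdiff_subset) h1
      · rintro (h1 | ⟨h1, h2⟩)
        · refine ⟨subset_nb D L h1, ?_⟩
          rw [hL] at h1
          exact (Finset.mem_sdiff.1 h1).2
        · refine ⟨?_, fun h3 => h2 (subset_nb D X h3)⟩
          obtain ⟨y, hy, h3⟩ := mem_nb.1 h1
          refine mem_nb.2 ⟨y, ?_, h3⟩
          rw [hL]
          refine Finset.mem_sdiff.2 ⟨hy, fun h4 => h2 (mem_nb.2 ⟨y, h4, h3⟩)⟩
    have e2 : (nb D L \ X).card = L.card + (nb D (nb D X) \ nb D X).card := by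
      rw [e, Finset.card_union_of_disjoint]
      rw [Finset.disjoint_left]
      intro z h1 h2
      rw [hL] at h1
      exact (Finset.mem_sdiff.1 h2).2 (Finset.mem_sdiff.1 h1).1
    simp only [hd]
    rw [e2]
    push_cast
    omega
  obtain ⟨T, hT, hTmin⟩ := Finset.exists_min_image L.ssubsets d
    ⟨∅, Finset.mem_ssubsets.2 (Finset.ssubset_iff_subset_ne.2
      ⟨Finset.empty_subset _, fun h0 => by rw [← h0] at hX; exact Finset.not_nonempty_empty hX⟩)⟩
  have hTL := Finset.mem_ssubsets.1 hT
  have hdT : d T ≤ 0 := by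
    rw [← hd0]
    exact hTmin ∅ (Finset.mem_ssubsets.2 (Finset.ssubset_iff_subset_ne.2
      ⟨Finset.empty_subset _, fun h0 => by rw [← h0] at hX; exact Finset.not_nonempty_empty hX⟩))
  -- the basic inequality
  have h1 : ∀ D' : Finset V, D' ⊆ L \ T →
      2 * D'.card ≤ (nb D D' \ (nb D T ∪ X)).card := by
    intro D' hD'
    have hle : d T ≤ d (T ∪ D') := by
      by_cases hc : T ∪ D' = L
      · rw [hc]; linarith
      · refine hTmin _ (Finset.mem_ssubsets.2 (Finset.ssubset_iff_subset_ne.2 ⟨?_, hc⟩))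
        exact Finset.union_subset hTL.1 (hD'.trans Finset.sdiff_subset)
    have e1 : nb D (T ∪ D') \ X = (nb D T \ X) ∪ (nb D D' \ (nb D T ∪ X)) := by
      rw [nb_union]
      ext z
      simp only [Finset.mem_sdiff, Finset.mem_union]
      tauto
    have e2 : (nb D (T ∪ D') \ X).card =
        (nb D T \ X).card + (nb D D' \ (nb D T ∪ X)).card := by
      rw [e1, Finset.card_union_of_disjoint]
      rw [Finset.disjoint_left]
      intro z h1 h2
      simp only [Finset.mem_sdiff, Finset.mem_union] at h1 h2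
      tauto
    have e3 : (T ∪ D').card = T.card + D'.card := by
      rw [Finset.card_union_of_disjoint]
      rw [Finset.disjoint_left]
      intro z h1 h2
      exact (Finset.mem_sdiff.1 (hD' h2)).2 h1
    simp only [hd] at hle
    rw [e2, e3] at hle
    push_cast at hle
    omega
  set D' : OGraph V :=
    { arc := fun a b => D.arc a b ∧ (a ∈ X → b ∈ X ∪ T)
      loopless := fun a ha => D.loopless a ha.1
      asymm := fun a b ha hb => D.asymm a b ha.1 hb.1 } with hD'
  have hCE : CE D' := by
    intro y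
    by_cases hy : y ∈ X
    · set Dy := N1 D y \ (X ∪ T) with hDy
      set Ey := nb D Dy \ (nb D T ∪ X) with hEy
      have hDyL : Dy ⊆ L \ T := by
        intro z hz
        obtain ⟨h2, h3⟩ := Finset.mem_sdiff.1 hz
        rw [Finset.mem_union, not_or] at h3
        refine Finset.mem_sdiff.2 ⟨?_, h3.2⟩
        rw [hL]
        exact Finset.mem_sdiff.2 ⟨mem_nb.2 ⟨y, hy, Or.inr (mem_N1.1 h2)⟩, h3.1⟩
      have h2 := h1 Dy hDyL
      have e1 : (N1 D' y).card + Dy.card = (N1 D y).card := by
        have e : N1 D' y = N1 D y ∩ (X ∪ T) := by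
          ext z
          rw [Finset.mem_inter, mem_N1, mem_N1]
          constructor
          · rintro ⟨h3, h4⟩
            exact ⟨h3, h4 hy⟩
          · rintro ⟨h3, h4⟩
            exact ⟨h3, fun _ => h4⟩
        rw [e, hDy]
        exact Finset.card_inter_add_card_sdiff _ _
      have h3 : N2 D' y ⊆ (N2 D y ∪ Dy) \ Ey := by
        intro z hz
        obtain ⟨h3, h4, u, h5, h6⟩ := mem_N2.1 hz
        refine Finset.mem_sdiff.2 ⟨?_, ?_⟩
        · by_cases h7 : D.arc y z
          · refine Finset.mem_union_right _ (Finset.mem_sdiff.2 ⟨mem_N1.2 h7, fun h8 => h4 ?_⟩)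
            exact ⟨h7, fun _ => h8⟩
          · exact Finset.mem_union_left _ (mem_N2.2 ⟨h3, h7, u, h5.1, h6.1⟩)
        · intro h7
          obtain ⟨-, h8⟩ := Finset.mem_sdiff.1 h7
          rw [Finset.mem_union, not_or] at h8
          rcases Finset.mem_union.1 (h5.2 hy) with h9 | h9
          · rcases Finset.mem_union.1 (h6.2 h9) with h10 | h10
            · exact h8.2 h10
            · exact h8.1 (subset_nb D T h10)
          · exact h8.1 (mem_nb.2 ⟨u, h9, Or.inr h6.1⟩)
      have h4 : Ey ⊆ N2 D y ∪ Dy := by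
        intro z hz
        obtain ⟨h5, h6⟩ := Finset.mem_sdiff.1 hz
        rw [Finset.mem_union, not_or] at h6
        obtain ⟨u, hu, h7⟩ := mem_nb.1 h5
        rcases h7 with h7 | h7
        · rw [h7]; exact Finset.mem_union_right _ hu
        · have h8 : D.arc y u := mem_N1.1 (Finset.mem_sdiff.1 hu).1
          by_cases h9 : D.arc y z
          · refine Finset.mem_union_right _ (Finset.mem_sdiff.2 ⟨mem_N1.2 h9, ?_⟩)
            rw [Finset.mem_union, not_or]
            exact ⟨h6.2, fun h10 => h6.1 (subset_nb D T h10)⟩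
          · refine Finset.mem_union_left _ (mem_N2.2 ⟨?_, h9, u, h8, h7⟩)
            rintro rfl
            exact h6.2 hy
      have h5 : (N2 D' y).card ≤ (N2 D y ∪ Dy).card - Ey.card := by
        rw [← Finset.card_sdiff_of_subset h4]
        exact Finset.card_le_card h3
      have h6 : (N2 D y ∪ Dy).card ≤ (N2 D y).card + Dy.card := Finset.card_union_le _ _
      have h7 := h.ce y
      have h8 := Finset.card_le_card h4
      rw [← hEy] at h2
      omega
    · have e : N1 D' y = N1 D y := by
        ext z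
        rw [mem_N1, mem_N1]
        exact ⟨fun h2 => h2.1, fun h2 => ⟨h2, fun h3 => absurd h3 hy⟩⟩
      have h2 : N2 D' y ⊆ N2 D y := by
        intro z hz
        obtain ⟨h3, h4, u, h5, h6⟩ := mem_N2.1 hz
        exact mem_N2.2 ⟨h3, fun h7 => h4 ⟨h7, fun h8 => absurd h8 hy⟩, u, h5.1, h6.1⟩
      rw [e]
      exact lt_of_le_of_lt (Finset.card_le_card h2) (h.ce y)
  obtain ⟨b, hb, hbT⟩ := Finset.exists_of_ssubset hTL
  have hb' := hb
  rw [hL] at hb'
  obtain ⟨h2, h3⟩ := Finset.mem_sdiff.1 hb'
  obtain ⟨a, ha, h4⟩ := mem_nb.1 h2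
  rcases h4 with h4 | h4
  · rw [h4] at h3; exact h3 ha
  · have h5 := (h.min D' (fun _ _ h => h.1) hCE a b h4).2 ha
    rcases Finset.mem_union.1 h5 with h6 | h6
    · exact h3 h6
    · exact hbT h6

end Vale.Agent.P038.H207
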