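import Vale.Agent.P038.H207.Cut

/-!
# The key inequality
-/

namespace Vale.Agent.P038.H207

open Finset

variable {V : Type*} [Fintype V] [DecidableEq V]

theorem AU_sub_U {D : OGraph V} {X Y : V → Finset V} (hF : Feas D X Y) {z s : V}
    (h : Cl D z s) : Us (fun x => nb D (Y x)) s ⊆ Us Y z := by
  intro x hx
  rw [mem_Us] at hx ⊢
  rcases hx with rfl | hx
  · by_cases hz : z ∈ Y x
    · exact Or.inl (hF.sep _ _ (hF.hX _ _ h) hz).symm
    · exact Or.inr hz
  · exact Or.inr fun hz => hx (mem_nb.2 ⟨z, hz, h⟩)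

theorem AZ_sub_X {D : OGraph V} {X : V → Finset V} {z s : V}
    (h : Cl D z s) : AZ D X s ⊆ X z := by
  intro x hx
  exact mem_AZ.1 hx z h

theorem X_sub_U {D : OGraph V} {X Y : V → Finset V} (hF : Feas D X Y) (z : V) :
    X z ⊆ Us Y z := by
  intro x hx
  rw [mem_Us]
  by_cases hz : z ∈ Y x
  · exact Or.inl (hF.sep _ _ hx hz).symm
  · exact Or.inr hz

theorem AZ_sub_AU {D : OGraph V} {X Y : V → Finset V} (hF : Feas D X Y) (s : V) :
    AZ D X s ⊆ Us (fun x => nb D (Y x)) s := by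
  intro x hx
  rw [mem_Us]
  by_cases hz : s ∈ nb D (Y x)
  · obtain ⟨z, hz1, hz2⟩ := mem_nb.1 hz
    have h1 := mem_AZ.1 hx z hz2
    have h2 := hF.sep _ _ h1 hz1
    subst h2
    have h3 := mem_AZ.1 hx s (Or.inl rfl)
    exact Or.inl (hF.sep _ _ h3 (hF.hY _ _ hz2)).symm
  · exact Or.inr hz

theorem key {D : OGraph V} {X Y : V → Finset V} (hF : Feas D X Y)
    (hmin : ∀ X' Y', Feas D X' Y' → cost D X Y ≤ cost D X' Y') :
    ∑ z, (c D (Us Y z) - c D (X z)) ≤
      ∑ s, (c D (Us (fun x => nb D (Y x)) s) - c D (AZ D X s)) := by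
  classical
  choose p hp using fun z => exists_fair D (Us Y z) (X z)
  choose p' hp' using fun s => exists_fair D (Us (fun x => nb D (Y x)) s) (AZ D X s)
  have hone : ∀ z x, x ∈ Us Y z → x ∉ X z → 1 ≤ load (p z) x := fun z x h1 h2 =>
    (hp z).one_le (fun S hS => row_opt hF hmin z S hS) x h1 h2
  have hmono : ∀ z s x, Cl D z s → x ∈ Us (fun x => nb D (Y x)) s → x ∉ X z →
      load (p z) x ≤ load (p' s) x := fun z s x h h1 h2 =>
    (hp z).mono (hp' s) (AU_sub_U hF h) (AZ_sub_X h) x h1 h2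
  have hone' : ∀ s x, x ∈ Us (fun x => nb D (Y x)) s → x ∉ AZ D X s → 1 ≤ load (p' s) x := by
    intro s x h1 h2
    rw [mem_AZ] at h2
    push Not at h2
    obtain ⟨z, hz, h3⟩ := h2
    exact le_trans (hone z x (AU_sub_U hF hz h1) h3) (hmono z s x hz h1 h3)
  -- the column comparison
  have hcol : ∀ x, ∑ z ∈ Finset.univ.filter (fun z => x ∈ Us Y z \ X z), (load (p z) x - 1) ≤
      ∑ s ∈ Finset.univ.filter (fun s => x ∈ Us (fun x => nb D (Y x)) s \ AZ D X s),
        (load (p' s) x - 1) := by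
    intro x
    set Gx := Finset.univ.filter (fun z => x ∈ Us Y z \ X z) with hGx
    have hG : ∀ z ∈ Gx, z ∉ Y x ∧ x ∉ X z := by
      intro z hz
      obtain ⟨h1, h2⟩ := Finset.mem_sdiff.1 (Finset.mem_filter.1 hz).2
      refine ⟨?_, h2⟩
      rcases mem_Us.1 h1 with h3 | h3
      · exact absurd (hF.hX z x (Or.inl h3)) h2
      · exact h3
    have hhall : ∀ S : Finset {z // z ∈ Gx},
        S.card ≤ (S.biUnion fun z => (nb D {z.1} \ nb D (Y x))).card := by
      intro S
      have h1 := col_opt hF hmin x (S.image Subtype.val) (by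
        intro z hz
        obtain ⟨w, -, rfl⟩ := Finset.mem_image.1 hz
        exact hG _ w.2)
      rw [Finset.card_image_of_injective _ Subtype.val_injective] at h1
      refine le_trans h1 (Finset.card_le_card ?_)
      intro u hu
      obtain ⟨h2, h3⟩ := Finset.mem_sdiff.1 hu
      obtain ⟨z, hz, h4⟩ := mem_nb.1 h2
      obtain ⟨w, hw, rfl⟩ := Finset.mem_image.1 hz
      exact Finset.mem_biUnion.2 ⟨w, hw, Finset.mem_sdiff.2
        ⟨mem_nb.2 ⟨w.1, Finset.mem_singleton_self _, h4⟩, h3⟩⟩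
    obtain ⟨f, hf, hf2⟩ := (Finset.all_card_le_biUnion_card_iff_exists_injective _).1 hhall
    have hf3 : ∀ z : {z // z ∈ Gx}, Cl D z.1 (f z) ∧ f z ∉ nb D (Y x) := by
      intro z
      obtain ⟨h1, h2⟩ := Finset.mem_sdiff.1 (hf2 z)
      obtain ⟨w, hw, h3⟩ := mem_nb.1 h1
      rw [Finset.mem_singleton] at hw
      subst hw
      exact ⟨h3, h2⟩
    have hin : ∀ z : {z // z ∈ Gx}, x ∈ Us (fun x => nb D (Y x)) (f z) ∧ x ∉ AZ D X (f z) := by
      intro z
      refine ⟨mem_Us.2 (Or.inr (hf3 z).2), fun h => ?_⟩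
      exact (hG z.1 z.2).2 (mem_AZ.1 h z.1 (hf3 z).1)
    calc ∑ z ∈ Gx, (load (p z) x - 1) = ∑ z : {z // z ∈ Gx}, (load (p z.1) x - 1) := by
          rw [← Finset.sum_coe_sort Gx (fun z => load (p z) x - 1)]
      _ ≤ ∑ z : {z // z ∈ Gx}, (load (p' (f z)) x - 1) := by
          refine Finset.sum_le_sum fun z _ => ?_
          have := hmono z.1 (f z) x (hf3 z).1 (hin z).1 (hG z.1 z.2).2
          linarith
      _ = ∑ s ∈ Finset.univ.image f, (load (p' s) x - 1) := by
          rw [Finset.sum_image (fun a _ b _ h => hf h)]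
      _ ≤ _ := by
          refine Finset.sum_le_sum_of_subset_of_nonneg ?_ ?_
          · intro s hs
            obtain ⟨z, -, rfl⟩ := Finset.mem_image.1 hs
            exact Finset.mem_filter.2 ⟨Finset.mem_univ _, Finset.mem_sdiff.2 (hin z)⟩
          · intro s hs _
            obtain ⟨h1, h2⟩ := Finset.mem_sdiff.1 (Finset.mem_filter.1 hs).2
            have := hone' s x h1 h2
            linarith
  have hsum : ∑ z, ∑ x ∈ Us Y z \ X z, (load (p z) x - 1) ≤
      ∑ s, ∑ x ∈ Us (fun x => nb D (Y x)) s \ AZ D X s, (load (p' s) x - 1) := by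
    rw [Finset.sum_comm' (s := Finset.univ) (t := fun z => Us Y z \ X z) (t' := Finset.univ)
      (s' := fun x => Finset.univ.filter (fun z => x ∈ Us Y z \ X z)) (by
        intro z x; simp)]
    rw [Finset.sum_comm' (s := Finset.univ) (t := fun s => Us (fun x => nb D (Y x)) s \ AZ D X s)
      (t' := Finset.univ)
      (s' := fun x => Finset.univ.filter
        (fun s => x ∈ Us (fun x => nb D (Y x)) s \ AZ D X s)) (by
        intro z x; simp)]
    exact Finset.sum_le_sum fun x _ => hcol x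
  have e1 : ∀ (A B : Finset V) (q : V → V → ℝ), Fair D A B q → B ⊆ A →
      ∑ x ∈ A \ B, (load q x - 1) = ((c D A - c D B : ℤ) : ℝ) := by
    intro A B q hq hAB
    rw [Finset.sum_sub_distrib, hq.sum_load]
    simp only [Finset.sum_const, nsmul_eq_mul, mul_one]
    have h1 : ((nb D A \ nb D B).card : ℝ) = (nb D A).card - (nb D B).card := by
      rw [Finset.cast_card_sdiff (nb_mono hAB)]
    have h2 : ((A \ B).card : ℝ) = A.card - B.card := by
      rw [Finset.cast_card_sdiff hAB]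
    rw [h1, h2]
    unfold c
    push_cast; ring
  have h3 : ∀ z, ∑ x ∈ Us Y z \ X z, (load (p z) x - 1) = ((c D (Us Y z) - c D (X z) : ℤ) : ℝ) :=
    fun z => e1 _ _ _ (hp z) (X_sub_U hF z)
  have h4 : ∀ s, ∑ x ∈ Us (fun x => nb D (Y x)) s \ AZ D X s, (load (p' s) x - 1) =
      ((c D (Us (fun x => nb D (Y x)) s) - c D (AZ D X s) : ℤ) : ℝ) :=
    fun s => e1 _ _ _ (hp' s) (AZ_sub_AU hF s)
  rw [Finset.sum_congr rfl fun z _ => h3 z, Finset.sum_congr rfl fun s _ => h4 s] at hsum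
  exact_mod_cast hsum

end Vale.Agent.P038.H207
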